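import Vale.Agent.P040.H629.Prep

/-!
# P040 (both odd), helper629: generic pruning steps and the gate lemma
-/

set_option autoImplicit false
set_option linter.unusedVariables false
set_option linter.unusedSectionVars false

namespace Vale.Agent.P040.H629

open Vale.Agent.P040.H906 P040H251

variable {W : Type*} [LinearOrder W]

/-- the minus end point of a chord -/
def ng (c : Cfg W) (col : W → Bool) (b : Bool) (x : W) : W := if col x = true then c.f b x else x

/-- the plus end point of a chord -/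
def ps (c : Cfg W) (col : W → Bool) (b : Bool) (x : W) : W := if col x = true then x else c.f b x

def IsMin (c : Cfg W) (E : W → ℝ) (b : Bool) (x : W) : Prop :=
  x ∈ c.S ∧ ∀ b', ∀ x' ∈ c.S, c.dl E b x ≤ c.dl E b' x'

variable {c : Cfg W} {col : W → Bool} {E : W → ℝ} {s : ℝ}

theorem ends (hg : c.Good) (hcol : ColOK col c) (b : Bool) {x : W} (hx : x ∈ c.S) (E : W → ℝ) :
    ng c col b x ∈ c.S ∧ ps c col b x ∈ c.S ∧ col (ng c col b x) = false ∧
      col (ps c col b x) = true ∧ |c.dl E b x| = |E (ng c col b x) - E (ps c col b x)| := by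
  have hs : |sg b| = 1 := by cases b <;> simp [sg]
  unfold ng ps Cfg.dl
  rcases h : col x with _ | _
  · have h2 := hcol b x hx
    rw [h] at h2
    simp only [Bool.false_eq_true, if_false]
    exact ⟨hx, hg.mem b x hx, h, by simpa using h2, by rw [abs_mul, hs, one_mul, abs_sub_comm]⟩
  · have h2 := hcol b x hx
    rw [h] at h2
    simp only [if_true]
    exact ⟨hg.mem b x hx, hx, by simpa using h2, h, by rw [abs_mul, hs, one_mul]⟩

theorem IsMin.nonpos (hg : c.Good) {b : Bool} {x : W} (h : IsMin c E b x) : c.dl E b x ≤ 0 := by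
  have := h.2 b _ (hg.mem b x h.1)
  rw [Cfg.dl_inv hg h.1] at this
  linarith

theorem gap_dl (hg : c.Good) (hcol : ColOK col c) (hs : 0 < s) (hgap : Gap c col E s)
    {b : Bool} {x : W} (h : IsMin c E b x) (b' : Bool) {x' : W} (hx' : x' ∈ c.S) :
    (ng c col b x = ng c col b' x' ∧ E (ps c col b x) = E (ps c col b' x') ∧
      c.dl E b x = c.dl E b' x') ∨ c.dl E b x + 4 * s < c.dl E b' x' := by
  obtain ⟨n1, p1, cn1, cp1, e1⟩ := ends hg hcol b h.1 E
  obtain ⟨n2, p2, cn2, cp2, e2⟩ := ends hg hcol b' hx' E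
  have h0 := h.nonpos hg
  have hm := h.2 b' x' hx'
  obtain ⟨g1, g2⟩ := hgap _ n1 _ p1 cn1 cp1
  have g3 := g2 _ n2 _ p2 cn2 cp2
  obtain ⟨g4, -⟩ := hgap _ n2 _ p2 cn2 cp2
  rw [← e1] at g1 g3
  rw [← e2] at g3 g4
  rw [abs_of_nonpos h0] at g1 g3
  rcases le_total 0 (c.dl E b' x') with h2 | h2
  · right
    rw [abs_of_nonneg h2] at g4
    linarith
  · rw [abs_of_nonpos h2] at g3 g4
    rcases g3 with ⟨h3, h4⟩ | h3
    · left
      refine ⟨h3, h4, ?_⟩
      rw [h3, h4, ← e2, abs_of_nonpos h0, abs_of_nonpos h2] at e1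
      linarith
    · right
      rw [abs_of_nonneg (by linarith)] at h3
      linarith

theorem IsMin.neg (hg : c.Good) (hcol : ColOK col c) (hs : 0 < s) (hgap : Gap c col E s)
    {b : Bool} {x : W} (h : IsMin c E b x) : c.dl E b x < -(4 * s) := by
  obtain ⟨n1, p1, cn1, cp1, e1⟩ := ends hg hcol b h.1 E
  obtain ⟨g1, g2⟩ := hgap _ n1 _ p1 cn1 cp1
  rw [← e1, abs_of_nonpos (h.nonpos hg)] at g1
  linarith

theorem same_page (hg : c.Good) (hcol : ColOK col c) {b : Bool} {x x' : W} (hx : x ∈ c.S)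
    (hx' : x' ∈ c.S) (hn : ng c col b x = ng c col b x') (hd : c.dl E b x = c.dl E b x')
    (h0 : c.dl E b x < 0) : x = x' := by
  unfold ng at hn
  have i1 := Cfg.dl_inv hg (E := E) (b := b) hx
  have i2 := Cfg.dl_inv hg (E := E) (b := b) hx'
  split_ifs at hn with h1 h2 h2
  · exact hg.inj hx hx' hn
  · rw [hn] at i1; linarith
  · rw [← hn] at i2; linarith
  · exact hn

/-- minimal arcs are leaves -/
theorem leaf_of_min (hg : c.Good) (hcol : ColOK col c) (hs : 0 < s) (hgap : Gap c col E s) {M : ℝ}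
    (hv : c.Valid E M) {b : Bool} {x : W} (h : IsMin c E b x) : c.Leaf b x := by
  refine ⟨h.1, fun z hz hc => ?_⟩
  obtain ⟨y, hy, h1, h2, h3⟩ := inner hg hv h.1 hz hc
  rcases gap_dl hg hcol hs hgap h b hy with ⟨h4, h5, h6⟩ | h4
  · have := same_page hg hcol h.1 hy h4 h6 (by have := h.neg hg hcol hs hgap; linarith)
    rw [← this] at h1
    exact not_cyc_left h1
  · linarith

/-- two bigons with a common minus point have the same, strictly minimal mass -/
structure Tie (c : Cfg W) (col : W → Bool) (E : W → ℝ) (s : ℝ) (b : Bool) (a : W) : Prop where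
  l1 : c.Leaf b a
  l2 : c.Leaf (!b) (c.f b a)
  cl : col a = true
  eq : E (c.f (!b) (c.f b a)) = E a
  min : IsMin c E b a
  other : ∀ b', ∀ x' ∈ c.S, ¬ (b' = b ∧ x' = a) → ¬ (b' = !b ∧ x' = c.f b a) →
    c.dl E b a + 4 * s < c.dl E b' x'

theorem Tie.dl_eq {b : Bool} {a : W} (h : Tie c col E s b a) :
    c.dl E (!b) (c.f b a) = c.dl E b a := by
  unfold Cfg.dl
  rw [h.eq, sg_not]; ring

theorem tie_of (hg : c.Good) (hcol : ColOK col c) (hs : 0 < s) (hgap : Gap c col E s) {M : ℝ}
    (hv : c.Valid E M) {b : Bool} {a : W} (h1 : IsMin c E b a)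
    (h2 : IsMin c E (!b) (c.f b a)) (hc : col a = true)
    (he : E (c.f (!b) (c.f b a)) = E a) : Tie c col E s b a where
  l1 := leaf_of_min hg hcol hs hgap hv h1
  l2 := leaf_of_min hg hcol hs hgap hv h2
  cl := hc
  eq := he
  min := h1
  other := by
    intro b' x' hx' n1 n2
    rcases gap_dl hg hcol hs hgap h1 b' hx' with ⟨h4, h5, h6⟩ | h4
    · exfalso
      have hneg := h1.neg hg hcol hs hgap
      rcases Cfg.bool_cases b b' with rfl | rfl
      · exact n1 ⟨rfl, (same_page hg hcol h1.1 hx' h4 h6 (by linarith)).symm⟩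
      · rcases gap_dl hg hcol hs hgap h2 (!b) hx' with ⟨k4, k5, k6⟩ | k4
        · have hneg2 := h2.neg hg hcol hs hgap
          exact n2 ⟨rfl, (same_page hg hcol h2.1 hx' k4 k6 (by linarith)).symm⟩
        · have := h1.2 (!b) _ h2.1
          have := h2.2 b _ h1.1
          linarith
    · exact h4

/-- there is a strictly minimal bigon, or a tie -/
theorem trich (hg : c.Good) (hcol : ColOK col c) (hs : 0 < s) (hgap : Gap c col E s) {M : ℝ}
    (hv : c.Valid E M) :
    (∃ b x, c.Leaf b x ∧ IsMin c E b x ∧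
      ∀ b', ∀ x' ∈ c.S, ¬ (b' = b ∧ x' = x) → c.dl E b x + 4 * s < c.dl E b' x') ∨
    ∃ b a, Tie c col E s b a := by
  obtain ⟨b, x, hl, hv'⟩ := Cfg.exists_leaf hg hv
  have hmin : IsMin c E b x := ⟨hl.1, fun b' x' hx' => by
    have := hv'.ge hg hx' (b := b'); linarith⟩
  by_cases hu : ∀ b', ∀ x' ∈ c.S, ¬ (b' = b ∧ x' = x) → c.dl E b x + 4 * s < c.dl E b' x'
  · exact Or.inl ⟨b, x, hl, hmin, hu⟩
  right
  push Not at hu
  obtain ⟨b', x', hx', hne, hle⟩ := hu
  rcases gap_dl hg hcol hs hgap hmin b' hx' with ⟨h4, h5, h6⟩ | h4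
  swap
  · exact absurd h4 (not_lt.2 hle)
  have hneg := hmin.neg hg hcol hs hgap
  have hmin' : IsMin c E b' x' := ⟨hx', fun b'' x'' hx'' => by rw [← h6]; exact hmin.2 b'' x'' hx''⟩
  rcases Cfg.bool_cases b b' with rfl | rfl
  · exact absurd (same_page hg hcol hl.1 hx' h4 h6 (by linarith)).symm (fun hh => hne rfl hh)
  rcases hcx : col x with _ | _ <;> rcases hcx' : col x' with _ | _
  · exfalso
    unfold ng at h4
    unfold ps at h5
    simp only [hcx, hcx', Bool.false_eq_true, if_false] at h4 h5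
    subst h4
    unfold Cfg.dl at h6 hneg
    rw [← h5, sg_not] at h6
    linarith
  · -- `x' → x → f b x`
    unfold ng at h4
    unfold ps at h5
    simp only [hcx, hcx', Bool.false_eq_true, if_false, if_true] at h4 h5
    refine ⟨!b, x', tie_of hg hcol hs hgap hv hmin' ?_ hcx' ?_⟩
    · rw [Bool.not_not, ← h4]; exact hmin
    · rw [Bool.not_not, ← h4]; exact h5
  · unfold ng at h4
    unfold ps at h5
    simp only [hcx, hcx', Bool.false_eq_true, if_false, if_true] at h4 h5
    refine ⟨b, x, tie_of hg hcol hs hgap hv hmin ?_ hcx ?_⟩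
    · rw [h4]; exact hmin'
    · rw [h4]; exact h5.symm
  · exfalso
    unfold ng at h4
    unfold ps at h5
    simp only [hcx, hcx', if_true] at h4 h5
    unfold Cfg.dl at h6 hneg
    rw [← h4, ← h5, sg_not] at h6
    linarith

/-! ### perturbations -/

/-- `E'` is within `s` of `E` on `S` -/
def Near (c : Cfg W) (E E' : W → ℝ) (s : ℝ) : Prop := ∀ x ∈ c.S, |E' x - E x| ≤ s

theorem Near.dl (hg : c.Good) {E' : W → ℝ} (h : Near c E E' s) (b : Bool) {x : W} (hx : x ∈ c.S) :
    |c.dl E' b x - c.dl E b x| ≤ 2 * s := by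
  have h1 := h x hx
  have h2 := h _ (hg.mem b x hx)
  rw [abs_le] at h1 h2 ⊢
  unfold Cfg.dl
  cases b <;> simp only [sg] <;> constructor <;> simp <;> linarith

theorem min_of_uniq (hg : c.Good) {b : Bool} {x : W} (hx : x ∈ c.S)
    (hu : ∀ b', ∀ x' ∈ c.S, ¬ (b' = b ∧ x' = x) → c.dl E b x + 4 * s < c.dl E b' x')
    {E' : W → ℝ} (h : Near c E E' s) : IsMin c E' b x := by
  refine ⟨hx, fun b' x' hx' => ?_⟩
  by_cases hh : b' = b ∧ x' = x
  · rw [hh.1, hh.2]
  · have h1 := hu b' x' hx' hh
    have h2 := h.dl hg b hx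
    have h3 := h.dl hg b' hx'
    rw [abs_le] at h2 h3
    linarith

theorem Tie.min1 (hg : c.Good) {b : Bool} {a : W} (ht : Tie c col E s b a) {E' : W → ℝ}
    (h : Near c E E' s) (hle : c.dl E' b a ≤ c.dl E' (!b) (c.f b a)) : IsMin c E' b a := by
  refine ⟨ht.l1.1, fun b' x' hx' => ?_⟩
  by_cases hh : b' = b ∧ x' = a
  · rw [hh.1, hh.2]
  by_cases hh2 : b' = !b ∧ x' = c.f b a
  · rw [hh2.1, hh2.2]; exact hle
  have h1 := ht.other b' x' hx' hh hh2
  have h2 := h.dl hg b ht.l1.1
  have h3 := h.dl hg b' hx'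
  rw [abs_le] at h2 h3
  linarith

theorem Tie.min2 (hg : c.Good) {b : Bool} {a : W} (ht : Tie c col E s b a) {E' : W → ℝ}
    (h : Near c E E' s) (hle : c.dl E' (!b) (c.f b a) ≤ c.dl E' b a) :
    IsMin c E' (!b) (c.f b a) := by
  refine ⟨ht.l2.1, fun b' x' hx' => ?_⟩
  by_cases hh : b' = b ∧ x' = a
  · rw [hh.1, hh.2]; exact hle
  by_cases hh2 : b' = !b ∧ x' = c.f b a
  · rw [hh2.1, hh2.2]
  have h1 := ht.other b' x' hx' hh hh2
  have h2 := h.dl hg (!b) ht.l2.1
  have h3 := h.dl hg b' hx'
  have h4 := ht.dl_eq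
  rw [abs_le] at h2 h3
  linarith

/-- values are unchanged by the deletion of a minimal leaf -/
theorem vt_del (hg : c.Good) (hcol : ColOK col c) (hc : 2 < c.S.card) {M : ℝ} {b : Bool} {x : W}
    (hv : c.Valid E M) (hl : c.Leaf b x) (hmin : IsMin c E b x) :
    vt col (c.del b x) E = vt col c E :=
  vt_leaf hg hcol (valid_min hg hv hl.1 hmin.2) hc hl (by ring)

theorem valid_del' (hg : c.Good) (hc : 2 < c.S.card) {M : ℝ} {b : Bool} {x : W}
    (hv : c.Valid E M) (hl : c.Leaf b x) (hmin : IsMin c E b x) :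
    (c.del b x).Valid E (-(c.dl E b x)) :=
  Cfg.valid_del hg hc hl (valid_min hg hv hl.1 hmin.2) (by ring)

theorem vt_congrE (hg : c.Good) (hcol : ColOK col c) {M : ℝ} {E' : W → ℝ} (hv : c.Valid E M)
    (hE : ∀ x ∈ c.S, E' x = E x) : vt col c E = vt col c E' :=
  vt_iso hg hg hcol hcol hv (iso_id c) hE (fun _ _ => rfl)

/-- the value at the merged point -/
noncomputable def gv (b : Bool) (u v : ℝ) : ℝ := if b = true then min u v else max u v

/-- the phase after a merge: `p` is the point which is kept, `a` the one which is deleted -/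
noncomputable def merge (b : Bool) (E : W → ℝ) (a p : W) : W → ℝ := fun z =>
  if z = p then gv b (E a) (E p) else E z

/-- **The gate lemma.** -/
theorem gate (hg : c.Good) (hcol : ColOK col c) (hc : 2 < c.S.card) {b : Bool} {a : W}
    (ht : Tie c col E s b a) (hrob : RobS c E s) {E' : W → ℝ} (h : Near c E E' s) :
    vt col c E' = vt col (c.del b a) (merge b E' a (c.f (!b) (c.f b a))) := by
  obtain ⟨M, hv⟩ := hrob E' h
  set q := c.f b a with hq
  set p := c.f (!b) q with hp
  have hcalc : c.dl E' (!b) q - c.dl E' b a = sg b * (E' a - E' p) := by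
    unfold Cfg.dl; rw [← hp, ← hq, sg_not]; ring
  rcases le_total (c.dl E' b a) (c.dl E' (!b) q) with hle | hle
  · have hmin := ht.min1 hg h hle
    have e1 := vt_del hg hcol hc hv ht.l1 hmin
    rw [← e1]
    refine vt_congrE (Cfg.good_del hg hc ht.l1) (hcol.del hg b ht.l1.1)
      (valid_del' hg hc hv ht.l1 hmin) ?_
    intro z hz
    unfold merge
    split_ifs with h1
    · rw [h1]
      unfold gv
      rw [← sub_nonneg, hcalc] at hle
      cases b
      · rw [if_neg (by simp)]; simp only [sg] at hle; exact max_eq_right (by simp at hle; linarith)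
      · rw [if_pos rfl]; simp only [sg] at hle; exact min_eq_right (by simp at hle; linarith)
    · rfl
  · have hmin := ht.min2 hg h hle
    have hval : gv b (E' a) (E' p) = E' a := by
      unfold gv
      rw [← sub_nonpos, hcalc] at hle
      cases b
      · rw [if_neg (by simp)]; simp only [sg] at hle; exact max_eq_left (by simp at hle; linarith)
      · rw [if_pos rfl]; simp only [sg] at hle; exact min_eq_left (by simp at hle; linarith)
    have e1 := vt_del hg hcol hc hv ht.l2 hmin
    rw [← e1]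
    have iso := Cfg.share_iso hg hc ht.l1 ht.l2
    have hcs : col p = col a := by
      rw [hp, hcol _ _ ht.l2.1, hcol _ _ ht.l1.1]; simp
    -- validity of the merged phase on `c.del b a`
    have hE2 : Near c E (fun z => if z = p then E' a else E' z) s := by
      intro z hz
      show |(if z = p then E' a else E' z) - E z| ≤ s
      split_ifs with h1
      · rw [h1, show E p = E a from ht.eq]; exact h a ht.l1.1
      · exact h z hz
    obtain ⟨M2, hv2⟩ := hrob _ hE2
    have hap : a ≠ p := by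
      intro hh
      have h1 : c.f (!b) a = q := by
        rw [hh]; exact hg.inv (!b) q ht.l2.1
      exact hg.ne_other hc b ht.l1.1 h1
    have hqp : q ≠ p := fun hh => hg.ne (!b) q ht.l2.1 hh.symm
    have hmin2 := ht.min1 hg hE2 (by
      unfold Cfg.dl
      rw [← hq, ← hp, sg_not]
      simp only [hap, hqp, if_false, if_true]
      linarith)
    have hv3 := valid_del' hg hc hv2 ht.l1 hmin2
    symm
    have hmm : ∀ z ∈ (c.del b a).S, merge b E' a p z = (fun z => if z = p then E' a else E' z) z := by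
      intro z hz
      unfold merge
      show (if z = p then gv b (E' a) (E' p) else E' z) = if z = p then E' a else E' z
      rw [hval]
    have hg1 := Cfg.good_del hg hc ht.l1
    have hv4 : (c.del b a).Valid (merge b E' a p) _ := valid_congr hg1 hmm hv3
    refine vt_iso (col := col) (col' := col) hg1 (Cfg.good_del hg hc ht.l2)
      (hcol.del hg b ht.l1.1) (hcol.del hg (!b) ht.l2.1) hv4 iso ?_ ?_
    · intro z hz
      rw [hmm z hz]
      show E' (if z = p then a else z) = if z = p then E' a else E' z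
      split_ifs <;> rfl
    · intro z hz
      show col (if z = p then a else z) = col z
      split_ifs with h1
      · rw [h1, hcs]
      · rfl

/-- robustness after the deletion of a strictly minimal leaf -/
theorem rob_uniq (hg : c.Good) (hc : 2 < c.S.card) (hs : 0 < s) {b : Bool} {x : W}
    (hl : c.Leaf b x)
    (hu : ∀ b', ∀ x' ∈ c.S, ¬ (b' = b ∧ x' = x) → c.dl E b x + 4 * s < c.dl E b' x')
    (hrob : RobS c E s) : RobS (c.del b x) E s := by
  intro E' hE'
  have hn : Near c E (fun z => if z ∈ (c.del b x).S then E' z else E z) s := by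
    intro z hz
    show |(if z ∈ (c.del b x).S then E' z else E z) - E z| ≤ s
    split_ifs with h1
    · exact hE' z h1
    · simpa using hs.le
  obtain ⟨M, hv⟩ := hrob _ hn
  have hmin := min_of_uniq hg hl.1 hu hn
  refine ⟨_, valid_congr (Cfg.good_del hg hc hl) (fun z hz => ?_) (valid_del' hg hc hv hl hmin)⟩
  show E' z = if z ∈ (c.del b x).S then E' z else E z
  rw [if_pos hz]

/-- robustness after a merge -/
theorem rob_tie (hg : c.Good) (hc : 2 < c.S.card) (hs : 0 < s) {b : Bool} {a : W}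
    (ht : Tie c col E s b a) (hrob : RobS c E s) : RobS (c.del b a) E s := by
  intro E' hE'
  set q := c.f b a with hq
  set p := c.f (!b) q with hp
  have hap : a ≠ p := by
    intro hh
    have h1 : c.f (!b) a = q := by
      rw [hh]; exact hg.inv (!b) q ht.l2.1
    exact hg.ne_other hc b ht.l1.1 h1
  have hqp : q ≠ p := fun hh => hg.ne (!b) q ht.l2.1 hh.symm
  have hqa : q ≠ a := hg.ne b a ht.l1.1
  have hpS : p ∈ (c.del b a).S := Cfg.mem_del.2 ⟨hqp.symm, hap.symm, hg.mem _ _ ht.l2.1⟩
  have haS : a ∉ (c.del b a).S := fun hh => (Cfg.mem_del.1 hh).2.1 rfl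
  have hqS : q ∉ (c.del b a).S := fun hh => (Cfg.mem_del.1 hh).1 rfl
  have hn : Near c E (fun z => if z ∈ (c.del b a).S then E' z else if z = a then E' p else E z) s := by
    intro z hz
    show |(if z ∈ (c.del b a).S then E' z else if z = a then E' p else E z) - E z| ≤ s
    split_ifs with h1 h2
    · exact hE' z h1
    · rw [h2, ← show E p = E a from ht.eq]; exact hE' p hpS
    · simpa using hs.le
  obtain ⟨M, hv⟩ := hrob _ hn
  have hmin := ht.min1 hg hn (by
    unfold Cfg.dl
    rw [← hq, ← hp, sg_not]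
    simp only [if_neg haS, if_neg hqS, if_pos hpS, if_neg hqa, if_true]
    linarith)
  refine ⟨_, valid_congr (Cfg.good_del hg hc ht.l1) (fun z hz => ?_)
    (valid_del' hg hc hv ht.l1 hmin)⟩
  show E' z = if z ∈ (c.del b a).S then E' z else if z = a then E' p else E z
  rw [if_pos hz]

end Vale.Agent.P040.H629
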