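import Vale.Agent.P040.H251.SelInst

/-!
# P040 (both odd), helper629: preparations for the tripod lemma

Validity and minimal arcs, the passes of the cut, the marks on the curve, and how they change
under the deletion of a bigon.
-/

set_option autoImplicit false
set_option linter.unusedVariables false
set_option linter.unusedSectionVars false

namespace Vale.Agent.P040.H629

open Vale.Agent.P040.H906 P040H251

variable {W : Type*} [LinearOrder W]

theorem dl_congr {c : Cfg W} (h : c.Good) {E E' : W → ℝ} (hE : ∀ x ∈ c.S, E' x = E x) (b : Bool)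
    {x : W} (hx : x ∈ c.S) : c.dl E' b x = c.dl E b x := by
  unfold Cfg.dl
  rw [hE x hx, hE _ (h.mem b x hx)]

/-- validity only sees the values on `S` -/
theorem valid_congr {c : Cfg W} (h : c.Good) {E E' : W → ℝ} {M : ℝ}
    (hE : ∀ x ∈ c.S, E' x = E x) (hv : c.Valid E M) : c.Valid E' M := by
  intro b T hT hPD
  refine le_trans (le_of_eq ?_) (hv b T hT hPD)
  exact Finset.sum_congr rfl fun x hx => by rw [dl_congr h hE b (hT hx)]

/-- the configuration is valid at the level of its minimal arc -/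
theorem valid_min {c : Cfg W} (h : c.Good) {E : W → ℝ} {M : ℝ} (hv : c.Valid E M) {b0 : Bool}
    {x0 : W} (hx0 : x0 ∈ c.S) (hmin : ∀ b, ∀ x ∈ c.S, c.dl E b0 x0 ≤ c.dl E b x) :
    c.Valid E (-(c.dl E b0 x0)) := by
  set M' := -(c.dl E b0 x0) with hM'
  have hM0 : 0 ≤ M' := by
    have := hmin b0 _ (h.mem b0 x0 hx0)
    rw [Cfg.dl_inv h hx0] at this
    linarith
  have hMM : M' ≤ M := by have := hv.ge h hx0 (b := b0); linarith
  have hle : ∀ b, ∀ x ∈ c.S, c.dl E b x ≤ M' := by
    intro b x hx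
    have := hmin b _ (h.mem b x hx)
    rw [Cfg.dl_inv h hx] at this
    linarith
  intro b T hT hPD
  rcases Nat.lt_or_ge T.card 2 with h2 | h2
  · rcases Nat.lt_or_ge T.card 1 with h1 | h1
    · have : T = ∅ := by rw [← Finset.card_eq_zero]; omega
      subst this; simp; linarith
    · obtain ⟨x, rfl⟩ := Finset.card_eq_one.1 (by omega : T.card = 1)
      have := hle b x (hT (by simp))
      simp; linarith
  · have h3 := hv b T hT hPD
    rw [Finset.sum_add_distrib, Finset.sum_const, nsmul_eq_mul] at h3 ⊢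
    have h4 : (2 : ℝ) ≤ T.card := by exact_mod_cast h2
    nlinarith

/-- an arc with a point inside contains an arc with smaller or equal mass -/
theorem inner {c : Cfg W} (h : c.Good) {E : W → ℝ} {M : ℝ} (hv : c.Valid E M) {b : Bool}
    {x z : W} (hx : x ∈ c.S) (hz : z ∈ c.S) (hc : Cyc x z (c.f b x)) :
    ∃ y ∈ c.S, Cyc x y (c.f b x) ∧ Cyc x (c.f b y) (c.f b x) ∧ c.dl E b y ≤ c.dl E b x := by
  have key : ∀ y ∈ c.S, Cyc x y (c.f b x) → Cyc x (c.f b y) (c.f b x) → Cyc x y (c.f b y) →
      Cyc y (c.f b y) (c.f b x) → c.dl E b y ≤ c.dl E b x := by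
    intro y hy h1 h0 h2 h3
    have hfx := h.mem b x hx
    have hne1 : y ≠ c.f b x := by rintro rfl; exact not_cyc_right h1
    have hne2 : y ≠ x := by rintro rfl; exact not_cyc_left h1
    have hiy := h.inv b x hx
    have hne3 := h.ne b x hx
    have hne4 := h.ne b y hy
    have hne5 : c.f b y ≠ c.f b x := fun h4 => hne2 (h.inj hy hx h4)
    have hD : Dis (c.f b) y (c.f b x) := by
      refine ⟨?_, ?_⟩
      · rintro (h4 | h4 | h4)
        · exact hne1 h4.symm
        · exact hne5 h4.symm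
        · unfold Cyc at *; grind
      · rintro (h4 | h4 | h4)
        · exact hne1 h4
        · rw [hiy] at h4; exact hne2 h4
        · rw [hiy] at h4; unfold Cyc at *; grind
    have hfam := hv b {y, c.f b x} (by
        intro z hz; simp at hz; rcases hz with rfl | rfl
        · exact hy
        · exact hfx) (by
        intro z hz w hw hzw
        simp at hz hw
        rcases hz with rfl | rfl <;> rcases hw with rfl | rfl
        · exact absurd rfl hzw
        · exact hD
        · exact hD.symm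
        · exact absurd rfl hzw)
    rw [Finset.sum_pair hne1, Cfg.dl_inv h hx] at hfam
    linarith
  have hcy' := h.nc b x hx z hz hc
  have hzi := h.inv b z hz
  rcases cyc_inner hc hcy' (h.ne b z hz).symm with ⟨h1, h2⟩ | ⟨h1, h2⟩
  · exact ⟨z, hz, hc, hcy', key z hz hc hcy' h1 h2⟩
  · exact ⟨_, h.mem b z hz, hcy', by rw [hzi]; exact hc, key _ (h.mem b z hz) hcy'
      (by rw [hzi]; exact hc) (by rw [hzi]; exact h1) (by rw [hzi]; exact h2)⟩

/-! ### the cut -/

/-- `bt x y` is the number of times the forward arc from `x` to `y` passes the cut -/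
structure Pass (S : Finset W) (bt : W → W → ℕ) : Prop where
  rev : ∀ x ∈ S, ∀ y ∈ S, x ≠ y → bt x y + bt y x = 1
  add : ∀ x ∈ S, ∀ z ∈ S, ∀ y ∈ S, Cyc x z y → bt x y = bt x z + bt z y

theorem Pass.sub {S S' : Finset W} {bt : W → W → ℕ} (h : Pass S bt) (hS : S' ⊆ S) :
    Pass S' bt where
  rev := fun x hx y hy => h.rev x (hS hx) y (hS hy)
  add := fun x hx z hz y hy => h.add x (hS hx) z (hS hz) y (hS hy)

theorem cyc_rot {x y z : W} (h : Cyc x y z) : Cyc y z x := by unfold Cyc at *; tauto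

/-! ### marks -/

/-- the marks after the deletion of a chord: the marks of three chords go to the new one -/
def mkd (c : Cfg W) (b : Bool) (x : W) (mk : Bool → W → ℕ) : Bool → W → ℕ := fun b' y =>
  if b' = !b ∧ (y = c.f (!b) x ∨ y = c.f (!b) (c.f b x)) then
    mk (!b) x + mk b x + mk (!b) (c.f b x) else mk b' y

/-- the state: marks on the curve, the cut on the line, chord parity -/
structure St (c : Cfg W) (col : W → Bool) (Eg : W → ℝ) (M : ℝ) (bt : W → W → ℕ)
    (mk : Bool → W → ℕ) (arc : W → ZMod 3) : Prop where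
  good : c.Good
  colok : ColOK col c
  pass : Pass c.S bt
  msym : ∀ b, ∀ x ∈ c.S, mk b (c.f b x) = mk b x
  mtot : ∑ x ∈ c.S, (mk true x + mk false x) = 6
  arcs : ∀ b, ∀ x ∈ c.S, col x = b → arc (c.f b x) = arc x + mk b x
  par : ∀ b, ∀ x ∈ c.S, ∃ k : ℤ, 2 * (M + c.dl Eg b x) = mk b x + bt x (c.f b x) + 2 * k

theorem sum_mk (b : Bool) (mk : Bool → W → ℕ) (x : W) :
    mk true x + mk false x = mk b x + mk (!b) x := by
  cases b
  · show _ = mk false x + mk true x; omega
  · rfl

theorem St.del {c : Cfg W} {col : W → Bool} {Eg : W → ℝ} {M : ℝ} {bt : W → W → ℕ}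
    {mk : Bool → W → ℕ} {arc : W → ZMod 3} (h : St c col Eg M bt mk arc) (hc : 2 < c.S.card)
    {b : Bool} {x : W} (hl : c.Leaf b x) :
    St (c.del b x) col Eg M bt (mkd c b x mk) arc := by
  have hg := h.good
  have hx := hl.1
  have hq := hg.mem b x hx
  have hP := hg.mem (!b) x hx
  have hQ := hg.mem (!b) _ hq
  have hpq := hg.ne b x hx
  have hPp := hg.ne (!b) x hx
  have hQq := hg.ne (!b) _ hq
  have hPq := hg.ne_other hc b hx
  have hinvP := hg.inv (!b) x hx
  have hinvQ := hg.inv (!b) _ hq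
  have hQp : c.f (!b) (c.f b x) ≠ x := by
    intro he; apply hPq; rw [← he, hinvQ, he]
  have hPQ : c.f (!b) x ≠ c.f (!b) (c.f b x) := by
    intro he; exact hpq (hg.inj hx hq he).symm
  obtain ⟨o1, o2, o3, o4⟩ := Cfg.leaf_order hpq.symm hPp.symm hQp.symm hPq.symm hQq.symm hPQ
    (hl.2 _ hP) (hl.2 _ hQ) (hg.nc (!b) x hx _ hq)
  have hsub : (c.del b x).S ⊆ c.S := fun z hz => (Cfg.mem_del.1 hz).2.2
  have hmP := h.msym (!b) x hx
  have hmQ := h.msym (!b) _ hq
  have hmb := h.msym b x hx
  have hfP : (c.del b x).f (!b) (c.f (!b) x) = c.f (!b) (c.f b x) := by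
    rw [Cfg.del_other, if_pos hinvP]
  have hfQ : (c.del b x).f (!b) (c.f (!b) (c.f b x)) = c.f (!b) x := by
    rw [Cfg.del_other, if_neg (by rw [hinvQ]; exact hpq), if_pos hinvQ]
  have hfo : ∀ y ∈ c.S, y ≠ c.f (!b) x → y ≠ c.f (!b) (c.f b x) →
      (c.del b x).f (!b) y = c.f (!b) y := by
    intro y hy h1 h2
    rw [Cfg.del_other, if_neg, if_neg]
    · intro h3; apply h2; rw [← h3, hg.inv _ _ hy]
    · intro h3; apply h1; rw [← h3, hg.inv _ _ hy]
  have hneb : ∀ y : W, ¬ (b = !b ∧ (y = c.f (!b) x ∨ y = c.f (!b) (c.f b x))) := by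
    intro y hh; cases b <;> simp at hh
  have mb : ∀ y, mkd c b x mk b y = mk b y := by
    intro y; unfold mkd; rw [if_neg (hneb y)]
  have mP : mkd c b x mk (!b) (c.f (!b) x) = mk (!b) x + mk b x + mk (!b) (c.f b x) := by
    unfold mkd; rw [if_pos ⟨rfl, Or.inl rfl⟩]
  have mQ : mkd c b x mk (!b) (c.f (!b) (c.f b x)) = mk (!b) x + mk b x + mk (!b) (c.f b x) := by
    unfold mkd; rw [if_pos ⟨rfl, Or.inr rfl⟩]
  have mo : ∀ y, y ≠ c.f (!b) x → y ≠ c.f (!b) (c.f b x) → mkd c b x mk (!b) y = mk (!b) y := by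
    intro y h1 h2; unfold mkd; rw [if_neg]; rintro ⟨-, h3 | h3⟩
    · exact h1 h3
    · exact h2 h3
  refine ⟨Cfg.good_del hg hc hl, h.colok.del hg b hx, h.pass.sub hsub, ?_, ?_, ?_, ?_⟩
  · -- msym
    intro b' y hy
    have hyS := hsub hy
    rcases Cfg.bool_cases b b' with rfl | rfl
    · rw [Cfg.del_same, mb, mb]; exact h.msym b' y hyS
    · by_cases h1 : y = c.f (!b) x
      · rw [h1, hfP, mP, mQ]
      by_cases h2 : y = c.f (!b) (c.f b x)
      · rw [h2, hfQ, mP, mQ]
      rw [hfo y hyS h1 h2, mo y h1 h2, mo, h.msym _ _ hyS]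
      · intro h3; exact (Cfg.mem_del.1 hy).2.1 (hg.inj hyS hx h3)
      · intro h3; exact (Cfg.mem_del.1 hy).1 (hg.inj hyS hq h3)
  · -- total
    have e1 : ∀ z ∈ (c.del b x).S, mkd c b x mk true z + mkd c b x mk false z =
        (mk b z + mk (!b) z) + (if z = c.f (!b) x then mk b x + mk (!b) (c.f b x) else 0) +
          (if z = c.f (!b) (c.f b x) then mk b x + mk (!b) x else 0) := by
      intro z hz
      rw [sum_mk b, mb]
      by_cases h1 : z = c.f (!b) x
      · subst h1
        rw [mP, if_pos rfl, if_neg hPQ, hmP]; omega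
      by_cases h2 : z = c.f (!b) (c.f b x)
      · subst h2
        rw [mQ, if_neg (Ne.symm hPQ), if_pos rfl, hmQ]; omega
      rw [mo z h1 h2, if_neg h1, if_neg h2]
      omega
    rw [Finset.sum_congr rfl e1, Finset.sum_add_distrib, Finset.sum_add_distrib,
      Finset.sum_ite_eq' , Finset.sum_ite_eq', if_pos (Cfg.mem_del.2 ⟨hPq, hPp, hP⟩),
      if_pos (Cfg.mem_del.2 ⟨hQq, hQp, hQ⟩)]
    have e2 : ∑ z ∈ c.S, (mk b z + mk (!b) z) = 6 := by
      rw [← h.mtot]; exact Finset.sum_congr rfl fun z _ => (sum_mk b mk z).symm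
    have e3 := Finset.sum_erase_add c.S (fun z => mk b z + mk (!b) z) hx
    have e4 := Finset.sum_erase_add (c.S.erase x) (fun z => mk b z + mk (!b) z)
      (Finset.mem_erase.2 ⟨hpq, hq⟩)
    show ∑ z ∈ (c.S.erase x).erase (c.f b x), (mk b z + mk (!b) z) + _ + _ = 6
    omega
  · -- arcs
    intro b' y hy hcy
    have hyS := hsub hy
    rcases Cfg.bool_cases b b' with rfl | rfl
    · rw [Cfg.del_same, mb]; exact h.arcs b' y hyS hcy
    · by_cases h1 : y = c.f (!b) x
      · subst h1
        have c1 : col x = b := by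
          have := h.colok (!b) x hx
          rw [hcy] at this
          revert this; generalize col x = t; cases b <;> cases t <;> simp
        have c2 : col (c.f b x) = !b := by rw [h.colok b x hx, c1]
        have a1 := h.arcs (!b) _ hP hcy
        rw [hinvP, hmP] at a1
        have a2 := h.arcs b x hx c1
        have a3 := h.arcs (!b) _ hq c2
        rw [hfP, mP, a3, a2, a1]
        push_cast; ring
      by_cases h2 : y = c.f (!b) (c.f b x)
      · subst h2
        have c2 : col (c.f b x) = b := by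
          have := h.colok (!b) _ hq
          rw [hcy] at this
          revert this; generalize col (c.f b x) = t; cases b <;> cases t <;> simp
        have c1 : col x = !b := by
          have := h.colok b x hx
          rw [c2] at this
          revert this; generalize col x = t; cases b <;> cases t <;> simp
        have a1 := h.arcs (!b) _ hQ hcy
        rw [hinvQ, hmQ] at a1
        have a2 := h.arcs b _ hq c2
        rw [hg.inv b x hx, hmb] at a2
        have a3 := h.arcs (!b) x hx c1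
        rw [hfQ, mQ, a3, a2, a1]
        push_cast; ring
      rw [hfo y hyS h1 h2, mo y h1 h2]; exact h.arcs (!b) y hyS hcy
  · -- parity
    intro b' y hy
    have hyS := hsub hy
    rcases Cfg.bool_cases b b' with rfl | rfl
    · have e : (c.del b' x).dl Eg b' y = c.dl Eg b' y := by unfold Cfg.dl; rw [Cfg.del_same]
      rw [e, Cfg.del_same, mb]; exact h.par b' y hyS
    · obtain ⟨k1, hk1⟩ := h.par (!b) _ hP
      obtain ⟨k2, hk2⟩ := h.par (!b) _ hq
      obtain ⟨k3, hk3⟩ := h.par b x hx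
      obtain ⟨k4, hk4⟩ := h.par b _ hq
      have r3 := h.pass.rev x hx _ hq hpq.symm
      have r5 := h.pass.rev _ hP _ hQ hPQ
      have t1 := h.pass.add _ hP _ hx _ hQ (cyc_rot (cyc_rot o2))
      have t2 := h.pass.add _ hx _ hq _ hQ o1
      rw [Cfg.dl_inv hg hx, hg.inv b x hx, hmb] at hk4
      unfold Cfg.dl at hk1 hk2 hk3 hk4
      rw [hinvP, hmP] at hk1
      rw [sg_not] at hk1 hk2
      have r3' : (bt x (c.f b x) : ℝ) + bt (c.f b x) x = 1 := by exact_mod_cast r3
      have r5' : (bt (c.f (!b) x) (c.f (!b) (c.f b x)) : ℝ) +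
        bt (c.f (!b) (c.f b x)) (c.f (!b) x) = 1 := by exact_mod_cast r5
      have t1' : (bt (c.f (!b) x) (c.f (!b) (c.f b x)) : ℝ) =
        bt (c.f (!b) x) x + bt x (c.f (!b) (c.f b x)) := by exact_mod_cast t1
      have t2' : (bt x (c.f (!b) (c.f b x)) : ℝ) =
        bt x (c.f b x) + bt (c.f b x) (c.f (!b) (c.f b x)) := by exact_mod_cast t2
      by_cases h1 : y = c.f (!b) x
      · subst h1
        refine ⟨k1 + k2 - k3 - mk b x - bt x (c.f b x), ?_⟩
        unfold Cfg.dl
        rw [hfP, mP, sg_not]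
        push_cast
        linarith
      by_cases h2 : y = c.f (!b) (c.f b x)
      · subst h2
        refine ⟨mk b x + k4 + 2 * k3 - k1 - k2 - mk (!b) x - mk (!b) (c.f b x) + bt x (c.f b x), ?_⟩
        unfold Cfg.dl
        rw [hfQ, mQ, sg_not]
        push_cast
        linarith
      have e : (c.del b x).dl Eg (!b) y = c.dl Eg (!b) y := by
        unfold Cfg.dl; rw [hfo y hyS h1 h2]
      rw [e, hfo y hyS h1 h2, mo y h1 h2]; exact h.par (!b) y hyS

/-! ### robust and generic phases -/

/-- every phase within distance `s` is valid -/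
def RobS (c : Cfg W) (E : W → ℝ) (s : ℝ) : Prop :=
  ∀ E' : W → ℝ, (∀ x ∈ c.S, |E' x - E x| ≤ s) → ∃ M, c.Valid E' M

/-- generic phase, with margin `4 * s`: `col = true` are the plus points -/
def Gap (c : Cfg W) (col : W → Bool) (E : W → ℝ) (s : ℝ) : Prop :=
  ∀ q ∈ c.S, ∀ p ∈ c.S, col q = false → col p = true → 4 * s < |E q - E p| ∧
    ∀ q' ∈ c.S, ∀ p' ∈ c.S, col q' = false → col p' = true →
      (q = q' ∧ E p = E p') ∨ 4 * s < abs (|E q - E p| - |E q' - E p'|)

theorem Gap.sub {c c' : Cfg W} {col : W → Bool} {E : W → ℝ} {s : ℝ} (h : Gap c col E s)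
    (hS : c'.S ⊆ c.S) : Gap c' col E s := by
  intro q hq p hp h1 h2
  obtain ⟨h3, h4⟩ := h q (hS hq) p (hS hp) h1 h2
  exact ⟨h3, fun q' hq' p' hp' => h4 q' (hS hq') p' (hS hp')⟩

end Vale.Agent.P040.H629
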