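import Vale.Agent.P040.H629.Gate

/-!
# P040 (both odd), helper629: the tripod lemma at a generic phase

Every plus point `p` carries a finite set `D p` of pairs `(m, l)`: the positions of the points of
its block (`m` marks further on the curve, `l` passes of the cut backwards on the line). The
invariants of `DD` survive the pruning, and at the end not all three arcs can occur in the block of
the last point.
-/

set_option autoImplicit false
set_option linter.unusedVariables false
set_option linter.unusedSectionVars false

namespace Vale.Agent.P040.H629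

open Vale.Agent.P040.H906 P040H251

variable {W : Type*} [LinearOrder W]

/-- the blocks of the plus points -/
structure DD (c : Cfg W) (col : W → Bool) (bt : W → W → ℕ) (mk : Bool → W → ℕ)
    (D : W → Finset (ℕ × ℕ)) : Prop where
  m : ∀ p ∈ c.S, col p = true → ∀ d ∈ D p, d.1 ≤ mk true p
  l : ∀ p ∈ c.S, col p = true → ∀ d ∈ D p, ∀ z ∈ c.S, z ≠ p → d.2 ≤ bt z p
  par : ∀ p ∈ c.S, col p = true → ∀ d ∈ D p, (d.1 + d.2) % 2 = 0
  chain : ∀ p ∈ c.S, col p = true → ∀ d ∈ D p, ∀ e ∈ D p,
    (d.1 ≤ e.1 ∧ d.2 ≤ e.2) ∨ (e.1 ≤ d.1 ∧ e.2 ≤ d.2)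

/-- `i` is the arc of a point in the block of `x` -/
def Lab (D : W → Finset (ℕ × ℕ)) (arc : W → ZMod 3) (x : W) (i : ZMod 3) : Prop :=
  ∃ d ∈ D x, arc x + (d.1 : ZMod 3) = i

open Classical in
/-- raise the plus points of arc `i` -/
noncomputable def up (col : W → Bool) (D : W → Finset (ℕ × ℕ)) (arc : W → ZMod 3) (E : W → ℝ)
    (s : ℝ) (i : ZMod 3) : W → ℝ := fun x => if col x = true ∧ Lab D arc x i then E x + s else E x

theorem near_up {c : Cfg W} {col : W → Bool} {D : W → Finset (ℕ × ℕ)} {arc : W → ZMod 3}
    {E : W → ℝ} {s : ℝ} (hs : 0 < s) (i : ZMod 3) : Near c E (up col D arc E s i) s := by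
  intro x hx
  unfold up
  split_ifs
  · rw [add_sub_cancel_left, abs_of_pos hs]
  · simpa using hs.le

theorem mkd_ge (c : Cfg W) (hg : c.Good) {b : Bool} {x : W} (hx : x ∈ c.S) {mk : Bool → W → ℕ}
    (hm : ∀ b, ∀ x ∈ c.S, mk b (c.f b x) = mk b x) (b' : Bool) (y : W) :
    mk b' y ≤ mkd c b x mk b' y := by
  unfold mkd
  split_ifs with h
  · obtain ⟨rfl, rfl | rfl⟩ := h
    · rw [hm _ _ hx]; omega
    · rw [hm _ _ (hg.mem b x hx)]; omega
  · exact le_rfl

theorem DD.del {c : Cfg W} {col : W → Bool} {bt : W → W → ℕ} {mk : Bool → W → ℕ}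
    {D : W → Finset (ℕ × ℕ)} (hg : c.Good) (hm : ∀ b, ∀ x ∈ c.S, mk b (c.f b x) = mk b x)
    (h : DD c col bt mk D) {b : Bool} {x : W} (hx : x ∈ c.S) :
    DD (c.del b x) col bt (mkd c b x mk) D where
  m := fun p hp hc d hd => (h.m p (Cfg.mem_del.1 hp).2.2 hc d hd).trans (mkd_ge c hg hx hm _ _)
  l := fun p hp hc d hd z hz hzp =>
    h.l p (Cfg.mem_del.1 hp).2.2 hc d hd z (Cfg.mem_del.1 hz).2.2 hzp
  par := fun p hp => h.par p (Cfg.mem_del.1 hp).2.2
  chain := fun p hp => h.chain p (Cfg.mem_del.1 hp).2.2

/-- the blocks after a merge of maximum type: `p → q → a` on the curve, `a → q → p` on the line -/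
def Dm (D : W → Finset (ℕ × ℕ)) (a p : W) (mu la : ℕ) : W → Finset (ℕ × ℕ) := fun z =>
  if z = p then D p ∪ (D a).image (fun d => (d.1 + mu, d.2 + la)) else D z

theorem leaf_cyc {a q p z : W} (h1 : ¬ Cyc a z q) (h2 : ¬ Cyc q z p) (h3 : ¬ Cyc a p q)
    (haq : a ≠ q) (hqp : q ≠ p) (hap : a ≠ p) (hza : z ≠ a) (hzq : z ≠ q) (hzp : z ≠ p) :
    Cyc z a p ∧ Cyc a q p := by
  unfold Cyc at *
  grind

/-- the merge of maximum type -/
theorem DD.merge {c : Cfg W} {col : W → Bool} {Eg : W → ℝ} {M : ℝ} {bt : W → W → ℕ}
    {mk : Bool → W → ℕ} {arc : W → ZMod 3} {D : W → Finset (ℕ × ℕ)}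
    (h : St c col Eg M bt mk arc) (hc : 2 < c.S.card) (hD : DD c col bt mk D) {a : W}
    (l1 : c.Leaf false a) (l2 : c.Leaf true (c.f false a)) (hca : col a = true)
    (he : Eg (c.f true (c.f false a)) = Eg a) :
    DD (c.del false a) col bt (mkd c false a mk)
      (Dm D a (c.f true (c.f false a)) (mk true (c.f true (c.f false a)) + mk false a)
        (bt a (c.f true (c.f false a)))) ∧
    arc a = arc (c.f true (c.f false a)) +
      ((mk true (c.f true (c.f false a)) + mk false a : ℕ) : ZMod 3) := by
  have hg := h.good
  have ha := l1.1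
  have hq := l2.1
  set q := c.f false a with hqd
  set p := c.f true q with hpd
  have hp : p ∈ c.S := hg.mem _ _ hq
  have hap : a ≠ p := by
    intro hh
    have h1 : c.f true a = q := by rw [hh]; exact hg.inv true q hq
    exact hg.ne_other hc false ha h1
  have hqp : q ≠ p := fun hh => hg.ne true q hq hh.symm
  have haq : a ≠ q := fun hh => hg.ne false a ha hh.symm
  have hcq : col q = false := by rw [hqd, h.colok false a ha, hca]; rfl
  have hcp : col p = true := by rw [hpd, h.colok true q hq, hcq]; rfl
  have hfp : c.f true p = q := hg.inv true q hq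
  have hfq : c.f false q = a := hg.inv false a ha
  have hmp : mk true q = mk true p := by
    have := h.msym true q hq
    rw [← hpd] at this; exact this.symm
  have hmq : mk false q = mk false a := h.msym false a ha
  -- order
  have hord : ∀ z ∈ c.S, z ≠ a → z ≠ q → z ≠ p → Cyc z a p := fun z hz n1 n2 n3 =>
    (leaf_cyc (l1.2 z hz) (l2.2 z hz) (l1.2 p hp) haq hqp hap n1 n2 n3).1
  have hcyc : Cyc a q p := by
    have h1 := l1.2 p hp
    have h1' : ¬ Cyc a p q := h1
    unfold Cyc at *
    grind
  have hbt : bt a p = bt a q + bt q p := h.pass.add a ha q hq p hp hcyc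
  -- parity of the displacement
  have hpar : (mk true p + mk false a + bt a p) % 2 = 0 := by
    obtain ⟨k1, hk1⟩ := h.par false a ha
    obtain ⟨k2, hk2⟩ := h.par true q hq
    have e1 : c.dl Eg false a = c.dl Eg true q := by
      unfold Cfg.dl
      rw [← hqd, ← hpd, he]; simp [sg]
    rw [e1, hk2] at hk1
    rw [← hqd] at hk1
    rw [← hpd] at hk1
    have hk : ((mk true q : ℤ) + bt q p + 2 * k2) = mk false a + bt a q + 2 * k1 := by
      exact_mod_cast hk1
    rw [hmp] at hk
    omega
  have hpm : p ∈ (c.del false a).S := Cfg.mem_del.2 ⟨hqp.symm, hap.symm, hp⟩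
  have hmk' : mkd c false a mk true p = mk true a + mk false a + mk true q := by
    unfold mkd
    rw [if_pos ⟨rfl, Or.inr rfl⟩]
    rfl
  refine ⟨⟨?_, ?_, ?_, ?_⟩, ?_⟩
  · intro z hz hcz d hd
    have hzS := (Cfg.mem_del.1 hz).2.2
    unfold Dm at hd
    split_ifs at hd with h1
    · subst h1
      rw [hmk']
      rw [Finset.mem_union, Finset.mem_image] at hd
      rcases hd with hd | ⟨e, he, rfl⟩
      · have := hD.m p hp hcp d hd
        omega
      · have := hD.m a ha hca e he
        simp only
        omega
    · exact (hD.m z hzS hcz d hd).trans (mkd_ge c hg ha h.msym _ _)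
  · intro z hz hcz d hd y hy hyz
    have hzS := (Cfg.mem_del.1 hz).2.2
    have hyS := (Cfg.mem_del.1 hy).2.2
    unfold Dm at hd
    split_ifs at hd with h1
    · subst h1
      rw [Finset.mem_union, Finset.mem_image] at hd
      rcases hd with hd | ⟨e, he, rfl⟩
      · exact hD.l p hp hcp d hd y hyS hyz
      · have n1 := (Cfg.mem_del.1 hy).2.1
        have n2 : y ≠ q := (Cfg.mem_del.1 hy).1
        have h1 := hD.l a ha hca e he y hyS n1
        have h2 := h.pass.add y hyS a ha p hp (hord y hyS n1 n2 hyz)
        simp only
        omega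
    · exact hD.l z hzS hcz d hd y hyS hyz
  · intro z hz hcz d hd
    have hzS := (Cfg.mem_del.1 hz).2.2
    unfold Dm at hd
    split_ifs at hd with h1
    · subst h1
      rw [Finset.mem_union, Finset.mem_image] at hd
      rcases hd with hd | ⟨e, he, rfl⟩
      · exact hD.par p hp hcp d hd
      · have := hD.par a ha hca e he
        simp only
        omega
    · exact hD.par z hzS hcz d hd
  · intro z hz hcz d hd e he
    have hzS := (Cfg.mem_del.1 hz).2.2
    unfold Dm at hd he
    split_ifs at hd he with h1
    · subst h1
      rw [Finset.mem_union, Finset.mem_image] at hd he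
      have low : ∀ d ∈ D p, d.1 ≤ mk true p ∧ d.2 ≤ bt a p := fun d hd =>
        ⟨hD.m p hp hcp d hd, hD.l p hp hcp d hd a ha hap⟩
      rcases hd with hd | ⟨d', hd', rfl⟩ <;> rcases he with he | ⟨e', he', rfl⟩
      · exact hD.chain p hp hcp d hd e he
      · left
        have := low d hd
        simp only
        omega
      · right
        have := low e he
        simp only
        omega
      · have := hD.chain a ha hca d' hd' e' he'
        simp only
        omega
    · exact hD.chain z hzS hcz d hd e he
  · have a1 := h.arcs true p hp hcp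
    rw [hfp] at a1
    have a2 := h.arcs false q hq hcq
    rw [hfq, hmq] at a2
    rw [a2, a1]
    push_cast; ring

/-- **The tripod lemma at a generic phase.** -/
theorem noTripod {col : W → Bool} {E Eg : W → ℝ} {M s : ℝ} {bt : W → W → ℕ} {arc : W → ZMod 3}
    (hs : 0 < s) : ∀ (n : ℕ) (c : Cfg W) (mk : Bool → W → ℕ) (D : W → Finset (ℕ × ℕ)),
    c.S.card = n → St c col Eg M bt mk arc → RobS c E s → Gap c col E s →
    (∀ p ∈ c.S, ∀ p' ∈ c.S, col p = true → col p' = true → E p = E p' → Eg p = Eg p') →
    DD c col bt mk D → ¬ ∀ i, vt col c E + s ≤ vt col c (up col D arc E s i) := by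
  classical
  intro n
  induction n using Nat.strong_induction_on with
  | _ n ih =>
  intro c mk D hn h hrob hgap heq hD H
  have hg := h.good
  have hcol := h.colok
  have hnE : Near c E E s := fun x _ => by simpa using hs.le
  obtain ⟨M0, hv0⟩ := hrob E hnE
  have hnu : ∀ i, Near c E (up col D arc E s i) s := fun i => near_up hs i
  rcases Nat.lt_or_ge 2 c.S.card with hc | hc
  · rcases trich hg hcol hs hgap hv0 with ⟨b, x, hl, hmin, hu⟩ | ⟨b, a, ht⟩
    · -- one strictly minimal bigon
      have hcard := Cfg.card_del hg hl.1 (b := b)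
      have hsub : (c.del b x).S ⊆ c.S := fun z hz => (Cfg.mem_del.1 hz).2.2
      refine ih (c.del b x).S.card (by omega) (c.del b x) (mkd c b x mk) D rfl (h.del hc hl)
        (rob_uniq hg hc hs hl hu hrob) (hgap.sub hsub)
        (fun p hp p' hp' => heq p (hsub hp) p' (hsub hp')) (hD.del hg h.msym hl.1) ?_
      intro i
      rw [vt_del hg hcol hc hv0 hl hmin]
      obtain ⟨M1, hv1⟩ := hrob _ (hnu i)
      rw [vt_del hg hcol hc hv1 hl (min_of_uniq hg hl.1 hu (hnu i))]
      exact H i
    · -- two bigons with a common minus point
      have hl := ht.l1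
      have hcard := Cfg.card_del hg hl.1 (b := b)
      have hsub : (c.del b a).S ⊆ c.S := fun z hz => (Cfg.mem_del.1 hz).2.2
      have hrob' := rob_tie hg hc hs ht hrob
      have hg' := Cfg.good_del hg hc hl
      have hcol' := hcol.del hg b hl.1
      set p := c.f (!b) (c.f b a) with hp
      have hpS : p ∈ c.S := hg.mem _ _ ht.l2.1
      have hcp : col p = true := by
        rw [hp, hcol _ _ ht.l2.1, hcol _ _ ht.l1.1, ht.cl]; rfl
      have hEp : E p = E a := ht.eq
      have g0 := gate hg hcol hc ht hrob hnE
      have hm0 : ∀ z, merge b E a p z = E z := by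
        intro z
        unfold merge gv
        split_ifs with h1 h2
        · rw [hEp, min_self, h1, hEp]
        · rw [hEp, max_self, h1, hEp]
        · rfl
      have hE' : merge b E a p = E := funext hm0
      rw [← hp, hE'] at g0
      cases b
      · -- maximum type
        have hp' : p = c.f true (c.f false a) := hp
        obtain ⟨hD', harc⟩ := DD.merge h hc hD hl ht.l2 ht.cl
          (by rw [← hp']; exact heq p hpS a hl.1 hcp ht.cl hEp)
        rw [← hp'] at hD' harc
        refine ih (c.del false a).S.card (by omega) (c.del false a) (mkd c false a mk) _ rfl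
          (h.del hc hl) hrob' (hgap.sub hsub)
          (fun p hp p' hp' => heq p (hsub hp) p' (hsub hp')) hD' ?_
        intro i
        rw [← g0]
        refine (H i).trans (le_of_eq ?_)
        rw [gate hg hcol hc ht hrob (hnu i)]
        congr 1
        funext z
        rw [← hp]
        unfold merge
        split_ifs with h1
        · rw [h1]
          unfold gv
          rw [if_neg (by simp)]
          have hiff : Lab (Dm D a p (mk true p + mk false a) (bt a p)) arc p i ↔
              (Lab D arc a i ∨ Lab D arc p i) := by
            unfold Lab Dm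
            rw [if_pos rfl]
            simp only [Finset.mem_union, Finset.mem_image]
            constructor
            · rintro ⟨d, hd | ⟨e, he, rfl⟩, hi⟩
              · exact Or.inr ⟨d, hd, hi⟩
              · left
                refine ⟨e, he, ?_⟩
                rw [harc, ← hi]; push_cast; ring
            · rintro (⟨e, he, hi⟩ | ⟨d, hd, hi⟩)
              · refine ⟨_, Or.inr ⟨e, he, rfl⟩, ?_⟩
                rw [harc] at hi
                rw [← hi]; push_cast; ring
              · exact ⟨d, Or.inl hd, hi⟩
          unfold up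
          simp only [hiff, hcp, ht.cl, true_and, hEp]
          by_cases k1 : Lab D arc a i <;> by_cases k2 : Lab D arc p i <;>
            simp [k1, k2, hs.le]
        · unfold up Lab Dm
          rw [if_neg h1]
      · -- minimum type
        refine ih (c.del true a).S.card (by omega) (c.del true a) (mkd c true a mk) D rfl
          (h.del hc hl) hrob' (hgap.sub hsub)
          (fun p hp p' hp' => heq p (hsub hp) p' (hsub hp')) (hD.del hg h.msym hl.1) ?_
        intro i
        rw [← g0]
        refine (H i).trans ?_
        rw [gate hg hcol hc ht hrob (hnu i), ← hp]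
        have hle : ∀ z, merge true (up col D arc E s i) a p z ≤ up col D arc E s i z := by
          intro z
          unfold merge gv
          by_cases h1 : z = p
          · rw [if_pos h1, if_pos rfl, h1]; exact min_le_right _ _
          · rw [if_neg h1]
        have hn1 : Near (c.del true a) E (up col D arc E s i) s := near_up hs i
        have hn2 : Near (c.del true a) E (merge true (up col D arc E s i) a p) s := by
          intro z hz
          have hzS := hsub hz
          unfold merge gv
          rw [if_pos rfl]
          split_ifs with h1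
          · rw [h1]
            have u1 := hnu i a hl.1
            have u2 := hnu i p hpS
            rw [← hEp] at u1
            rcases min_choice (up col D arc E s i a) (up col D arc E s i p) with h2 | h2 <;>
              rw [h2]
            · exact u1
            · exact u2
          · exact hnu i z hzS
        obtain ⟨M1, v1⟩ := hrob' _ hn1
        obtain ⟨M2, v2⟩ := hrob' _ hn2
        exact vt_mono _ _ rfl hg' hcol' _ _ M2 M1 v2 v1 fun z _ => hle z
  · -- two points
    have h2 := two_le hg
    have hcard : c.S.card = 2 := by omega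
    obtain ⟨a, ha⟩ := exists_out' hg hcol hv0
    have haS := ha.mem
    have hca := ha.col
    have hq := hg.mem true a haS
    have hqa := hg.ne true a haS
    have hlab : ∀ i, Lab D arc a i := by
      intro i
      have h1 := H i
      rw [vt_eq hg hcol ha, vt_eq hg hcol (Out.base hcard haS hca)] at h1
      unfold up at h1
      by_contra hno
      rw [if_neg (fun hh => hno hh.2)] at h1
      linarith
    have hm3 : mk true a ≤ 3 := by
      have h1 : ∑ x ∈ ({a, c.f true a} : Finset W), (mk true x + mk false x) ≤
          ∑ x ∈ c.S, (mk true x + mk false x) := by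
        apply Finset.sum_le_sum_of_subset
        intro z hz
        rw [Finset.mem_insert, Finset.mem_singleton] at hz
        rcases hz with rfl | rfl
        · exact haS
        · exact hq
      rw [Finset.sum_pair hqa.symm, h.mtot, h.msym true a haS] at h1
      omega
    have hl1 : ∀ d ∈ D a, d.2 ≤ 1 := by
      intro d hd
      have h1 := hD.l a haS hca d hd _ hq hqa
      have h2 := h.pass.rev _ hq _ haS hqa
      omega
    obtain ⟨d, hd, hdi⟩ := hlab (arc a + 1)
    obtain ⟨e, he, hei⟩ := hlab (arc a + 2)
    have hd3 := (hD.m a haS hca d hd).trans hm3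
    have he3 := (hD.m a haS hca e he).trans hm3
    have hdl := hl1 d hd
    have hel := hl1 e he
    have hdp := hD.par a haS hca d hd
    have hep := hD.par a haS hca e he
    have hch := hD.chain a haS hca d hd e he
    have hd1 : (d.1 : ZMod 3) = 1 := by simpa using hdi
    have he2 : (e.1 : ZMod 3) = 2 := by simpa using hei
    have k1 : d.1 = 1 := by
      obtain ⟨d1, d2⟩ := d
      simp only at hd1 hd3 ⊢
      interval_cases d1
      · exact absurd hd1 (by decide)
      · rfl
      · exact absurd hd1 (by decide)
      · exact absurd hd1 (by decide)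
    have k2 : e.1 = 2 := by
      obtain ⟨d1, d2⟩ := e
      simp only at he2 he3 ⊢
      interval_cases d1
      · exact absurd he2 (by decide)
      · exact absurd he2 (by decide)
      · rfl
      · exact absurd he2 (by decide)
    omega

end Vale.Agent.P040.H629
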